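import Vale.Agent.H50.Mahler.SaintRaymond
import Vale.Agent.H50.Mahler.Orthant
import Vale.Agent.H50.Mahler.OrthVol
import Vale.Agent.H50.Mahler.Alg

/-!
# P248: the volume product of locally anti-blocking bodies

The inequality `vol K * vol K° ≥ 4^n / n!` of the symmetric Mahler conjecture for every convex
body `K ⊆ ℝ^n` that is mapped into itself by the coordinate projections.
-/

namespace Vale.Agent.Results.P248.A_LocallyAntiBlocking

open MeasureTheory Set Vale.Agent.H50.Mahler

/-- Let `K ⊆ ℝ^n` be compact and convex with the origin in its interior, and suppose that `K` is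
mapped into itself by each of the `n` coordinate projections `x ↦ Function.update x i 0` (setting
the `i`-th coordinate to `0`).  Then `vol K * vol K° ≥ 4^n / n!`, where
`K° = {y : ∑ i, x i * y i ≤ 1 for all x ∈ K}` is the polar body and `vol` is Lebesgue measure
on `ℝ^n = Fin n → ℝ`. -/
theorem result (n : ℕ) (K : Set (Fin n → ℝ)) (hc : IsCompact K) (hv : Convex ℝ K)
    (h0 : (0 : Fin n → ℝ) ∈ interior K)
    (hp : ∀ x ∈ K, ∀ i, Function.update x i 0 ∈ K) :
    (4 : ℝ) ^ n / (n.factorial : ℝ) ≤
      (volume K).toReal * (volume {y : Fin n → ℝ | ∀ x ∈ K, ∑ i, x i * y i ≤ 1}).toReal := by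
  have hK : IsLAB K := ⟨hc, hv, h0, hp⟩
  change _ ≤ (volume K).toReal * (volume (polar K)).toReal
  set a : Finset (Fin n) → ℝ := fun S => (volume (piece S K)).toReal with ha
  set b : Finset (Fin n) → ℝ := fun S => (volume (dualAB (piece S K))).toReal with hb
  have hfinK : volume K < ⊤ := hc.measure_lt_top
  have hfinP : volume (polar K) < ⊤ := volume_polar_lt_top h0
  have hAB : ∀ S, IsAB (piece S K) := fun S => isAB_piece hK S
  have hfa : ∀ S, volume (piece S K) < ⊤ := fun S => volume_lt_top_of_isAB (hAB S)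
  have hfb : ∀ S, volume (dualAB (piece S K)) < ⊤ :=
    fun S => volume_lt_top_of_isAB (isAB_dualAB (hAB S))
  have h1 : ∑ S, a S ≤ (volume K).toReal := by
    have h := sum_volume_piece_le (K := K) hc.isClosed
    rw [ha, ← ENNReal.toReal_sum (fun S _ => (hfa S).ne)]
    exact ENNReal.toReal_mono hfinK.ne h
  have h2 : ∑ S, b S ≤ (volume (polar K)).toReal := by
    have h := sum_volume_piece_le (K := polar K) (isClosed_polar K)
    simp only [piece_polar hK] at h
    rw [hb, ← ENNReal.toReal_sum (fun S _ => (hfb S).ne)]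
    exact ENNReal.toReal_mono hfinP.ne h
  have h3 : ∀ S, 1 / (n.factorial : ℝ) ≤ a S * b S := by
    intro S
    have h := saintRaymond n (piece S K) (hAB S)
    have h' := ENNReal.toReal_mono (ENNReal.mul_lt_top (hfa S) (hfb S)).ne h
    rw [ENNReal.toReal_mul, ENNReal.toReal_ofReal (by positivity)] at h'
    exact h'
  have h4 := card_sq_mul_le a b (1 / (n.factorial : ℝ)) (fun S => ENNReal.toReal_nonneg)
    (fun S => ENNReal.toReal_nonneg) (by positivity) h3
  have hcard : (Fintype.card (Finset (Fin n)) : ℝ) ^ 2 = 4 ^ n := by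
    rw [Fintype.card_finset, Fintype.card_fin]
    push_cast
    rw [← pow_mul, mul_comm, pow_mul]
    norm_num
  calc (4 : ℝ) ^ n / (n.factorial : ℝ)
      = (Fintype.card (Finset (Fin n)) : ℝ) ^ 2 * (1 / (n.factorial : ℝ)) := by
        rw [hcard]; ring
    _ ≤ (∑ S, a S) * (∑ S, b S) := h4
    _ ≤ (volume K).toReal * (volume (polar K)).toReal :=
        mul_le_mul h1 h2 (Finset.sum_nonneg fun S _ => ENNReal.toReal_nonneg)
          ENNReal.toReal_nonneg

end Vale.Agent.Results.P248.A_LocallyAntiBlocking
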