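import Vale.Agent.H18.Q2.Main

/-!
# P248 (Q2): the sharp non-symmetric Mahler inequality for anti-blocking bodies

For every compact convex down-closed `K ⊆ ℝ^n_+` and every interior point `z` of `K`:
`vol K * vol (K - z)° ≥ (n+1)^(n+1) / (n!)^2`.
-/

namespace Vale.Agent.Results.P248.B_AntiBlockingNonsymmetric

open MeasureTheory Set

/-- Let `K ⊆ ℝ^n` be compact and convex, contained in the closed positive orthant and down-closed
(`x ∈ K`, `0 ≤ y i ≤ x i` for all `i` imply `y ∈ K`), and let `z` be an interior point of `K`.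
Then `vol K * vol (K - z)° ≥ (n+1)^(n+1) / (n!)^2`, where
`(K - z)° = {y : ∑ i, (x i - z i) * y i ≤ 1 for all x ∈ K}` is the polar body of `K` about `z` and
`vol` is Lebesgue measure on `ℝ^n = Fin n → ℝ`. -/
theorem result (n : ℕ) (K : Set (Fin n → ℝ)) (hc : IsCompact K) (hv : Convex ℝ K)
    (hnn : ∀ x ∈ K, ∀ i, 0 ≤ x i)
    (hdown : ∀ x ∈ K, ∀ y : Fin n → ℝ, (∀ i, 0 ≤ y i) → (∀ i, y i ≤ x i) → y ∈ K)
    (z : Fin n → ℝ) (hz : z ∈ interior K) :
    ((n : ℝ) + 1) ^ (n + 1) / (n.factorial : ℝ) ^ 2 ≤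
      (volume K).toReal *
        (volume {y : Fin n → ℝ | ∀ x ∈ K, ∑ i, (x i - z i) * y i ≤ 1}).toReal :=
  Vale.Agent.H18.Q2.mahler_antiblocking n K hc hv hnn hdown z hz

end Vale.Agent.Results.P248.B_AntiBlockingNonsymmetric
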