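import Vale.Agent.H18.Q2.MainEq

/-!
# P248 (Q2): the sharp non-symmetric Mahler inequality for anti-blocking bodies, with its
equality case

For every compact convex down-closed `K ⊆ ℝ^n_+` and every interior point `z` of `K`:
`vol K * vol (K - z)° ≥ (n+1)^(n+1) / (n!)^2`, and equality forces `K` to be the simplex
`{x ≥ 0 : ∑ x i / a i ≤ 1}` with `z` its centroid.
-/

namespace Vale.Agent.Results.P248.C_AntiBlockingEquality

open MeasureTheory Set

/-- Let `K ⊆ ℝ^n` be compact and convex, contained in the closed positive orthant and down-closed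
(`x ∈ K`, `0 ≤ y i ≤ x i` for all `i` imply `y ∈ K`), and let `z` be an interior point of `K`.
Then `vol K * vol (K - z)° ≥ (n+1)^(n+1) / (n!)^2`, where
`(K - z)° = {y : ∑ i, (x i - z i) * y i ≤ 1 for all x ∈ K}` is the polar body of `K` about `z`;
and if equality holds then `K = {x : x i ≥ 0 for all i, ∑ i, x i / a i ≤ 1}` for some
`a 1, …, a n > 0` (the simplex with vertices `0, a 1 • e 1, …, a n • e n`) and
`z i = a i / (n + 1)` (its centroid). -/
theorem result (n : ℕ) (K : Set (Fin n → ℝ)) (hc : IsCompact K) (hv : Convex ℝ K)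
    (hnn : ∀ x ∈ K, ∀ i, 0 ≤ x i)
    (hdown : ∀ x ∈ K, ∀ y : Fin n → ℝ, (∀ i, 0 ≤ y i) → (∀ i, y i ≤ x i) → y ∈ K)
    (z : Fin n → ℝ) (hz : z ∈ interior K) :
    ((n : ℝ) + 1) ^ (n + 1) / (n.factorial : ℝ) ^ 2 ≤
        (volume K).toReal *
          (volume {y : Fin n → ℝ | ∀ x ∈ K, ∑ i, (x i - z i) * y i ≤ 1}).toReal ∧
      ((volume K).toReal *
          (volume {y : Fin n → ℝ | ∀ x ∈ K, ∑ i, (x i - z i) * y i ≤ 1}).toReal =
          ((n : ℝ) + 1) ^ (n + 1) / (n.factorial : ℝ) ^ 2 →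
        ∃ a : Fin n → ℝ, (∀ i, 0 < a i) ∧
          K = {x : Fin n → ℝ | (∀ i, 0 ≤ x i) ∧ ∑ i, x i / a i ≤ 1} ∧
          ∀ i, z i = a i / ((n : ℝ) + 1)) :=
  Vale.Agent.H18.Q2.mahler_antiblocking_eq n K hc hv hnn hdown z hz

end Vale.Agent.Results.P248.C_AntiBlockingEquality
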