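import Vale.Agent.Results.P248.A_LocallyAntiBlocking
import Vale.Agent.Results.P248.C_AntiBlockingEquality

/-!
P248: the two proved cases in one statement.

(1) Q1-type: vol K * vol K° ≥ 4^n / n! for every compact convex K with 0 in its interior that is
mapped into itself by the coordinate projections (locally anti-blocking bodies).
(2) Q2-type: vol K * vol (K - z)° ≥ (n+1)^(n+1) / (n!)^2 for every compact convex down-closed K in
the positive orthant and every interior point z, and equality forces K to be a simplex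
{x ≥ 0 : ∑ x i / a i ≤ 1} with z its centroid.
-/

namespace Vale.Agent.Results.P248.D_BothClassesCombined

open MeasureTheory Set

/-- The conjunction of the statements of A_LocallyAntiBlocking and C_AntiBlockingEquality. -/
theorem result (n : ℕ) :
    (∀ K : Set (Fin n → ℝ), IsCompact K → Convex ℝ K → (0 : Fin n → ℝ) ∈ interior K →
      (∀ x ∈ K, ∀ i, Function.update x i 0 ∈ K) →
      (4 : ℝ) ^ n / (n.factorial : ℝ) ≤
        (volume K).toReal * (volume {y : Fin n → ℝ | ∀ x ∈ K, ∑ i, x i * y i ≤ 1}).toReal) ∧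
    (∀ K : Set (Fin n → ℝ), IsCompact K → Convex ℝ K → (∀ x ∈ K, ∀ i, 0 ≤ x i) →
      (∀ x ∈ K, ∀ y : Fin n → ℝ, (∀ i, 0 ≤ y i) → (∀ i, y i ≤ x i) → y ∈ K) →
      ∀ z ∈ interior K,
        ((n : ℝ) + 1) ^ (n + 1) / (n.factorial : ℝ) ^ 2 ≤
            (volume K).toReal *
              (volume {y : Fin n → ℝ | ∀ x ∈ K, ∑ i, (x i - z i) * y i ≤ 1}).toReal ∧
          ((volume K).toReal *
              (volume {y : Fin n → ℝ | ∀ x ∈ K, ∑ i, (x i - z i) * y i ≤ 1}).toReal =
              ((n : ℝ) + 1) ^ (n + 1) / (n.factorial : ℝ) ^ 2 →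
            ∃ a : Fin n → ℝ, (∀ i, 0 < a i) ∧
              K = {x : Fin n → ℝ | (∀ i, 0 ≤ x i) ∧ ∑ i, x i / a i ≤ 1} ∧
              ∀ i, z i = a i / ((n : ℝ) + 1))) :=
  ⟨fun K hc hv h0 hp => Vale.Agent.Results.P248.A_LocallyAntiBlocking.result n K hc hv h0 hp,
   fun K hc hv hnn hdown z hz =>
     Vale.Agent.Results.P248.C_AntiBlockingEquality.result n K hc hv hnn hdown z hz⟩

end Vale.Agent.Results.P248.D_BothClassesCombined
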